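import Vale.Agent.P181.H699.CaseI
import Vale.Agent.P181.H539.UpStmt
import Vale.Agent.P181.H463.CutRevStmt
import Vale.Agent.P181.PL.Defs

set_option autoImplicit false

/-!
# P181, PL (P7): case I with explicit numbers

`X` is a power of `log a`. The tail behind row `R` is heavy and spread; then Foulkes' inequality
holds for `lam`.
-/

open Finset

namespace Vale.Agent.P181.PL7

open Vale.Agent.P181.T4 Vale.Agent.P181.T7 Vale.Agent.P181.H280 Vale.Agent.P181.H463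
open Vale.Agent.P181.PL

/-- `dn` is the sum of the lower rows. -/
lemma dn_eq {n R : ℕ} (hR : R ≤ n) (lam : Fin n → ℕ) : dn lam R = ∑ i, low R lam i := by
  obtain ⟨d, rfl⟩ := Nat.exists_eq_add_of_le hR
  have h1 : ∀ i : Fin (R + d), (if R ≤ (i : ℕ) then lam i else 0) =
      if R ≤ (i : ℕ) then ex lam i else 0 := by
    intro i
    rw [ex_of_lt lam i.2]
  rw [dn, Finset.sum_congr rfl fun i _ => h1 i,
    ← Finset.sum_range (fun s => if R ≤ s then ex lam s else 0), Finset.sum_range_add]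
  have h2 : ∑ x ∈ range R, (if R ≤ x then ex lam x else 0) = 0 := by
    apply Finset.sum_eq_zero
    intro x hx
    rw [mem_range] at hx
    rw [if_neg (by omega)]
  have h3 : ∑ i : Fin (R + d - R), low R lam i = ∑ i ∈ range (R + d - R), ex lam (R + i) := by
    rw [Finset.sum_range]
    rfl
  rw [h2, zero_add, h3, Nat.add_sub_cancel_left]
  apply Finset.sum_congr rfl
  intro s _
  rw [if_pos (by omega)]

/-- The comparison for the reduced partition. -/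
theorem main_x (hU : UpStmt) (hCut : CutRev) (hL : LEx) {a b R N k : ℕ}
    {T : ℝ} {lam mu : Fin a → ℕ}
    (hT : 10 ^ 12 * (1 + Real.log a) ^ 6 ≤ T) (hb2 : b ≤ a ^ 2) (hlam : Antitone lam)
    (hsum : ∑ i, lam i = a * b) (hRa : R < a) (hR : (R : ℝ) ≤ T ^ 16)
    (hmu : Antitone mu) (hmus : ∑ s, mu s = k * N) (hN : N ≤ b) (hka : k ≤ a)
    (hk2 : (a : ℝ) * T ^ 12 ≤ (k : ℝ) ^ 2)
    (hNu : (a : ℝ) * T ^ 24 / 2 ≤ N) (h0 : T ^ 7 * (ex mu 0 : ℝ) ≤ (k : ℝ) * N)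
    (hlow : ∀ j, R ≤ j → ex mu j = ex lam j)
    (hle : plethMult N k a mu ≤ plethMult b a a lam) :
    plethMult a b a lam ≤ plethMult b a a lam := by
  have ha : 0 < a := by omega
  have ha1 : (1 : ℝ) ≤ a := by exact_mod_cast ha
  have hlog0 : 0 ≤ Real.log a := Real.log_nonneg ha1
  have hT9 : (10 : ℝ) ^ 9 ≤ T := by
    have h1 : (1 : ℝ) ≤ (1 + Real.log a) ^ 6 := one_le_pow₀ (by linarith)
    linarith
  have hT1 : (1 : ℝ) ≤ T := by linarith
  have hT0 : (0 : ℝ) < T := by linarith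
  have hP : (gt a a mu : ℝ) * Real.exp (2 * N) ≤ (plethMult N k a mu : ℕ) :=
    hL a k N a mu T ha (by
      refine le_trans ?_ hT
      have : (0 : ℝ) ≤ (1 + Real.log a) ^ 6 := by positivity
      nlinarith) le_rfl hka hk2
      (by
        refine le_trans ?_ hNu
        have h2 : (2 : ℝ) ≤ T ^ 18 := by
          calc (2 : ℝ) ≤ T := by linarith
            _ ≤ T ^ 18 := le_self_pow₀ hT1 (by norm_num)
        have h3 : T ^ 24 = T ^ 6 * T ^ 18 := by ring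
        have h4 : T ^ 6 ≤ T ^ 24 / 2 := by
          rw [h3]
          have : 0 ≤ T ^ 6 := by positivity
          nlinarith
        calc (a : ℝ) * T ^ 6 ≤ a * (T ^ 24 / 2) := by gcongr
          _ = a * T ^ 24 / 2 := by ring) (hN.trans hb2) hmu hmus h0
  have hL1 : ex lam 0 ≤ a ^ 3 := by
    rw [ex_of_lt lam ha]
    calc lam ⟨0, ha⟩ ≤ ∑ i, lam i :=
          Finset.single_le_sum (f := lam) (fun _ _ => Nat.zero_le _) (mem_univ _)
      _ = a * b := hsum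
      _ ≤ a * a ^ 2 := Nat.mul_le_mul_left _ hb2
      _ = a ^ 3 := by ring
  have hL2 : ex mu 0 ≤ a ^ 3 := by
    rw [ex_of_lt mu ha]
    calc mu ⟨0, ha⟩ ≤ ∑ i, mu i :=
          Finset.single_le_sum (f := mu) (fun _ _ => Nat.zero_le _) (mem_univ _)
      _ = k * N := hmus
      _ ≤ a * a ^ 2 := Nat.mul_le_mul hka (hN.trans hb2)
      _ = a ^ 3 := by ring
  refine caseI_fin hU hCut (N := N) hRa.le hlam hmu hlow (a ^ 3) hL1 hL2 ?_ hP hle
  have hpos : (0 : ℝ) < (a : ℝ) ^ 3 + 1 := by positivity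
  rw [Nat.cast_pow, ← Real.exp_log (pow_pos hpos _), Real.exp_le_exp, Real.log_pow]
  have hl3 : Real.log ((a : ℝ) ^ 3 + 1) ≤ T := by
    have h2 : (a : ℝ) ^ 3 + 1 ≤ Real.exp 1 * a ^ 3 := by
      have h3 : 1 ≤ (a : ℝ) ^ 3 := one_le_pow₀ ha1
      have h4 : (2 : ℝ) ≤ Real.exp 1 := by
        have := Real.add_one_le_exp (1 : ℝ)
        linarith
      nlinarith
    have h5 : Real.log ((a : ℝ) ^ 3 + 1) ≤ 1 + 3 * Real.log a := by
      refine (Real.log_le_log (by positivity) h2).trans (le_of_eq ?_)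
      rw [Real.log_mul (Real.exp_pos 1).ne' (by positivity), Real.log_exp, Real.log_pow]
      norm_num
    refine h5.trans (le_trans ?_ hT)
    have h6 : (1 + Real.log a) ≤ (1 + Real.log a) ^ 6 :=
      le_self_pow₀ (by linarith) (by norm_num)
    linarith
  have h1 : ((2 * (a * R) : ℕ) : ℝ) * Real.log ((a : ℝ) ^ 3 + 1) ≤
      (2 * (a * R) : ℕ) * T := mul_le_mul_of_nonneg_left hl3 (Nat.cast_nonneg _)
  refine h1.trans ?_
  push_cast
  have h2 : (a : ℝ) * R * T ≤ a * T ^ 16 * T := by gcongr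
  have h3 : (2 : ℝ) * (a * T ^ 16 * T) ≤ a * T ^ 24 := by
    have h4 : (2 : ℝ) ≤ T ^ 7 := by
      calc (2 : ℝ) ≤ T := by linarith
        _ ≤ T ^ 7 := le_self_pow₀ hT1 (by norm_num)
    calc (2 : ℝ) * (a * T ^ 16 * T) = 2 * (a * T ^ 17) := by ring
      _ ≤ T ^ 7 * (a * T ^ 17) := by gcongr
      _ = a * T ^ 24 := by ring
  calc 2 * ((a : ℝ) * R) * T = 2 * (a * R * T) := by ring
    _ ≤ 2 * (a * T ^ 16 * T) := by gcongr
    _ ≤ a * T ^ 24 := h3
    _ ≤ 2 * N := by linarith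

/-- **Case I**, explicit: a heavy and spread tail below row `R`. -/
theorem caseI_of (hU : UpStmt) (hCut : CutRev) (hL : LEx) {a b R : ℕ}
    {T : ℝ} {lam : Fin a → ℕ}
    (hT : 10 ^ 12 * (1 + Real.log a) ^ 6 ≤ T) (hb2 : b ≤ a ^ 2) (hlam : Antitone lam)
    (hsum : ∑ i, lam i = a * b) (hRa : R < a) (hR : (R : ℝ) ≤ T ^ 16)
    (hb : (a : ℝ) * T ^ 72 ≤ b)
    (hD : (a : ℝ) ^ 3 * T ^ 96 ≤ ((∑ i, low R lam i : ℕ) : ℝ) ^ 2)
    (hl : T ^ 8 * (ex lam R : ℝ) ≤ ((∑ i, low R lam i : ℕ) : ℝ)) :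
    plethMult a b a lam ≤ plethMult b a a lam := by
  have ha : 0 < a := by omega
  have ha0 : (0 : ℝ) < a := by exact_mod_cast ha
  have ha1 : (1 : ℝ) ≤ a := by exact_mod_cast ha
  have hlog0 : 0 ≤ Real.log a := Real.log_nonneg ha1
  have hT9 : (10 : ℝ) ^ 9 ≤ T := by
    have h1 : (1 : ℝ) ≤ (1 + Real.log a) ^ 6 := one_le_pow₀ (by linarith)
    linarith
  have hT1 : (1 : ℝ) ≤ T := by linarith
  have hT0 : (0 : ℝ) < T := by linarith
  have hsp := T4.sum_split hRa.le lam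
  have hDab : ∑ i, low R lam i ≤ a * b := by omega
  have hDa3 : ((∑ i, low R lam i : ℕ) : ℝ) ≤ (a : ℝ) ^ 3 := by
    have h1 : ∑ i, low R lam i ≤ a ^ 3 := hDab.trans (by
      calc a * b ≤ a * a ^ 2 := Nat.mul_le_mul_left _ hb2
        _ = a ^ 3 := by ring)
    exact_mod_cast h1
  have hTa : T ^ 32 ≤ a := by
    have h1 : (a : ℝ) ^ 3 * (T ^ 32) ^ 3 ≤ (a : ℝ) ^ 3 * (a : ℝ) ^ 3 := by
      calc (a : ℝ) ^ 3 * (T ^ 32) ^ 3 = (a : ℝ) ^ 3 * T ^ 96 := by ring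
        _ ≤ ((∑ i, low R lam i : ℕ) : ℝ) ^ 2 := hD
        _ ≤ ((a : ℝ) ^ 3) ^ 2 := by gcongr
        _ = _ := by ring
    have h2 := le_of_mul_le_mul_left h1 (by positivity)
    exact le_of_pow_le_pow_left₀ (by norm_num) ha0.le h2
  have hk2a : (a : ℝ) * T ^ 12 ≤ (a : ℝ) ^ 2 := by
    have h1 : T ^ 12 ≤ (a : ℝ) := (pow_le_pow_right₀ hT1 (by norm_num)).trans hTa
    calc (a : ℝ) * T ^ 12 ≤ a * a := by gcongr
      _ = (a : ℝ) ^ 2 := by ring
  set h : ℝ := Real.sqrt a with hhdef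
  have hh2 : h ^ 2 = a := Real.sq_sqrt ha0.le
  have hh1 : 1 ≤ h := by
    rw [hhdef]
    exact Real.one_le_sqrt.2 ha1
  have hh0 : 0 ≤ h := by linarith
  have hD' : (a : ℝ) * h * (T ^ 8) ^ 6 ≤ ((∑ i, low R lam i : ℕ) : ℝ) := by
    refine (sq_le_sq₀ (by positivity) (Nat.cast_nonneg _)).1 ?_
    calc ((a : ℝ) * h * (T ^ 8) ^ 6) ^ 2 = (a : ℝ) ^ 2 * h ^ 2 * T ^ 96 := by ring
      _ = (a : ℝ) ^ 3 * T ^ 96 := by rw [hh2]; ring
      _ ≤ _ := hD
  have hu8 : 8 ≤ T ^ 8 := by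
    calc (8 : ℝ) ≤ T := by linarith
      _ ≤ T ^ 8 := le_self_pow₀ hT1 (by norm_num)
  -- the first row of the reduced partition
  have hrow : ∀ (m0 : ℕ) (k N : ℕ), m0 ≤ ex lam R + 2 * a * R → ∑ i, low R lam i ≤ k * N →
      T ^ 7 * (m0 : ℝ) ≤ (k : ℝ) * N := by
    intro m0 k N h1 h2
    have h1' : (m0 : ℝ) ≤ ex lam R + 2 * a * R := by exact_mod_cast h1
    have h2' : ((∑ i, low R lam i : ℕ) : ℝ) ≤ k * N := by exact_mod_cast h2
    have h3 : T ^ 7 * (ex lam R : ℝ) ≤ ((∑ i, low R lam i : ℕ) : ℝ) / 2 := by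
      have h4 : 2 * (T ^ 7 * (ex lam R : ℝ)) ≤ T ^ 8 * (ex lam R : ℝ) := by
        calc 2 * (T ^ 7 * (ex lam R : ℝ)) ≤ T * (T ^ 7 * (ex lam R : ℝ)) := by
              gcongr
              linarith
          _ = T ^ 8 * (ex lam R : ℝ) := by ring
      linarith
    have h4 : T ^ 7 * (2 * a * R : ℝ) ≤ ((∑ i, low R lam i : ℕ) : ℝ) / 2 := by
      have h5 : 2 * (T ^ 7 * (2 * a * R : ℝ)) ≤ a * h * (T ^ 8) ^ 6 := by
        calc 2 * (T ^ 7 * (2 * a * R : ℝ)) ≤ 2 * (T ^ 7 * (2 * a * T ^ 16)) := by gcongr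
          _ = 4 * (a * T ^ 23) := by ring
          _ ≤ T * (a * T ^ 23) := by
              gcongr
              linarith
          _ = a * 1 * T ^ 24 := by ring
          _ ≤ a * h * T ^ 48 := by
              gcongr
              norm_num
          _ = a * h * (T ^ 8) ^ 6 := by ring
      linarith
    calc T ^ 7 * (m0 : ℝ) ≤ T ^ 7 * (ex lam R + 2 * a * R) := by gcongr
      _ = T ^ 7 * (ex lam R : ℝ) + T ^ 7 * (2 * a * R : ℝ) := by ring
      _ ≤ ((∑ i, low R lam i : ℕ) : ℝ) := by linarith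
      _ ≤ _ := h2'
  rcases Nat.eq_zero_or_pos R with hR0 | hR1
  · subst hR0
    have e1 : ∑ i, low 0 lam i = a * b := by
      rw [Finset.sum_range_zero, zero_add] at hsp
      rw [← hsp, hsum]
    have hb3 : (a : ℝ) * T ^ 24 / 2 ≤ b := by
      refine le_trans ?_ hb
      have h2 : T ^ 24 ≤ T ^ 72 := pow_le_pow_right₀ hT1 (by norm_num)
      have h3 : (a : ℝ) * T ^ 24 ≤ a * T ^ 72 := by gcongr
      have h4 : 0 ≤ (a : ℝ) * T ^ 24 := by positivity
      linarith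
    refine main_x hU hCut hL (R := 0) (N := b) (k := a) (mu := lam) hT hb2 hlam hsum ha
      (by rw [Nat.cast_zero]; positivity) hlam hsum le_rfl le_rfl hk2a hb3 ?_ (fun _ _ => rfl) le_rfl
    refine hrow (ex lam 0) a b (by omega) e1.le
  · by_cases hbig : (a : ℝ) ^ 2 * (T ^ 8) ^ 3 ≤ ((∑ i, low R lam i : ℕ) : ℝ)
    · obtain ⟨N, mu, h1, h2, h3, h4, h5, h6, h7, h8⟩ := caseI_pick_big lam hlam hsum hR1 hRa
        (T ^ 8) hu8 hbig
      have h4' : (a : ℝ) * T ^ 24 / 2 ≤ N := by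
        refine le_trans (le_of_eq ?_) h4
        ring
      exact main_x hU hCut hL hT hb2 hlam hsum hRa hR h1 h2 h3 le_rfl hk2a h4'
        (hrow _ _ _ h6 h5) h7 h8
    · push Not at hbig
      have hb' : (a : ℝ) * (T ^ 8) ^ 9 ≤ b := by
        refine le_trans (le_of_eq ?_) hb
        ring
      have hRu : (R : ℝ) ≤ (T ^ 8) ^ 2 := by
        refine hR.trans (le_of_eq ?_)
        ring
      obtain ⟨N, k, mu, h1, h2, h3, h4, h5, h6, h7, h8, h9, h10⟩ := caseI_pick_small lam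
        hlam hsum hR1 hRa (T ^ 8) h hu8 hh1 hb' hRu hD' hl hbig
      have h6' : (a : ℝ) * T ^ 24 / 2 ≤ N := by
        refine le_trans (le_of_eq ?_) h6
        ring
      have hk2 : (a : ℝ) * T ^ 12 ≤ (k : ℝ) ^ 2 := by
        calc (a : ℝ) * T ^ 12 = h ^ 2 * T ^ 12 := by rw [hh2]
          _ ≤ h ^ 2 * T ^ 48 := by
              gcongr
              norm_num
          _ = (h * (T ^ 8) ^ 3) ^ 2 := by ring
          _ ≤ (k : ℝ) ^ 2 := by gcongr
      exact main_x hU hCut hL hT hb2 hlam hsum hRa hR h1 h2 h3 h4 hk2 h6'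
        (hrow _ _ _ h8 h7) h9 h10

/-- **(P7)** -/
theorem caseIX_of (hL : LEx) : CaseIX := by
  intro a b R X D lam hlam hsum hb2 hR1 hRa hX hRX hD hl hD3 hb
  have ha : 0 < a := by omega
  have ha1 : (1 : ℝ) ≤ a := by exact_mod_cast ha
  have hlog0 : 0 ≤ Real.log a := Real.log_nonneg ha1
  have hX9 : (1 : ℝ) ≤ X := by
    have h1 : (1 : ℝ) ≤ (1 + Real.log a) ^ 6 := one_le_pow₀ (by linarith)
    linarith
  rw [dn_eq hRa.le] at hD
  subst hD
  refine caseI_of H539.up_stmt H463.cut_rev_stmt hL (T := X) hX hb2 hlam hsum hRa ?_ ?_ ?_ ?_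
  · have h1 : (R : ℝ) ≤ (X : ℝ) ^ 14 := by exact_mod_cast hRX
    exact h1.trans (pow_le_pow_right₀ hX9 (by norm_num))
  · have h1 : (a : ℝ) * (X : ℝ) ^ 130 ≤ b := by exact_mod_cast hb
    refine le_trans ?_ h1
    gcongr
    norm_num
  · have h1 : (a : ℝ) ^ 3 * (X : ℝ) ^ 160 ≤ ((∑ i, low R lam i : ℕ) : ℝ) ^ 2 := by
      exact_mod_cast hD3
    refine le_trans ?_ h1
    gcongr
    norm_num
  · have h1 : (X : ℝ) ^ 13 * (ex lam R : ℝ) ≤ ((∑ i, low R lam i : ℕ) : ℝ) := by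
      exact_mod_cast hl
    refine le_trans ?_ h1
    gcongr
    norm_num

end Vale.Agent.P181.PL7
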